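import Vale.Agent.P318.H937.Spec
import Vale.Agent.P318.H770.Meas

/-!
# P318: the energy lower bound (the last step of `SpecEXACT`)

`lam (testF N 𝒢 s) U · 2^s ≥ (9/10) sz U` for every mod-2 measure `U` of size at most
`min (2^s/100, 2^m')`.
-/

open Finset

namespace Vale.Agent.P318.H663

open Vale.Agent.P318 Vale.Agent.P318.H937

section bridge

variable {X : Type} [AddCommGroup X] [Module (ZMod 2) X] [Fintype X] [DecidableEq X]
  {M Bn Dn : ℕ} (N : NodeSys X M (Fin Bn × Fin Dn)) (𝒢 : Finset (Fin M → Fin Bn))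

omit [Fintype X] [DecidableEq X] in
theorem finite_pairT : Finite (PairT N 𝒢) := by unfold PairT; infer_instance

theorem finite_affT (Y : Type) [AddCommGroup Y] [Module (ZMod 2) Y] [Finite Y] :
    Finite (AffT Y) := by
  have : Finite (Module.Dual (ZMod 2) Y) := Module.finite_of_finite (ZMod 2)
  infer_instance

/-- the test energy is the average over the pair views of the energies of the push-forwards -/
theorem lam_eq (s : ℕ) (B : X → ZMod 2) [Fintype (PairT N 𝒢)] :
    lam (testF N 𝒢 s) B =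
      (∑ T : PairT N 𝒢, energyRM s (push (pview N 𝒢 T) B)) / (Nat.card (PairT N 𝒢) : ℝ) := by
  classical
  have hfa : Finite (AffT (X × X)) := finite_affT (X × X)
  have h1 : ∀ (T : PairT N 𝒢) (a : Fin s → AffT (X × X)),
      pair B (testF N 𝒢 s (T, a)) = pair (push (pview N 𝒢 T) B) (prodAff a) := by
    intro T a
    exact (H770.pr_push (pview N 𝒢 T) B (prodAff a)).symm
  have h2 : Nat.card {γ : TestT N 𝒢 s // pair B (testF N 𝒢 s γ) = 1} =
      ∑ T : PairT N 𝒢, Nat.card {a : Fin s → AffT (X × X) //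
        pair (push (pview N 𝒢 T) B) (prodAff a) = 1} := by
    rw [← Nat.card_sigma]
    refine Nat.card_congr ((Equiv.subtypeProdEquivSigmaSubtype
      (fun (T : PairT N 𝒢) (a : Fin s → AffT (X × X)) => pair B (testF N 𝒢 s (T, a)) = 1)).trans
      (Equiv.sigmaCongrRight fun T => Equiv.subtypeEquivRight fun a => by rw [h1]))
  have h3 : Nat.card (TestT N 𝒢 s) = Nat.card (PairT N 𝒢) * Nat.card (Fin s → AffT (X × X)) :=
    Nat.card_prod _ _
  unfold lam energyRM
  rw [h2, h3, ← Finset.sum_div, div_div]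
  push_cast
  rw [mul_comm]

open Classical in
/-- shapes of views -/
noncomputable def shapes : Finset (Finset (Fin M)) :=
  univ.filter fun R => N.Up R ∧ (N.minl R).card ≤ 2

/-- the seeds of one grid -/
def gridS (Dn : ℕ) {Bn M : ℕ} (g : Fin M → Fin Bn) (v : Fin M) : Finset (Fin Bn × Fin Dn) :=
  ({g v} : Finset (Fin Bn)) ×ˢ (univ : Finset (Fin Dn))

theorem gridS_card (g : Fin M → Fin Bn) (v : Fin M) : (gridS Dn g v).card = Dn := by
  simp [gridS]

omit [Fintype X] [DecidableEq X] in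
/-- sums over views are sums over shapes, grids and points of the grid -/
theorem sum_views [Fintype {T : Finset (Fin M) × (Fin M → Fin Bn × Fin Dn) // IsView N 𝒢 T}]
    (f : Finset (Fin M) × (Fin M → Fin Bn × Fin Dn) → ℝ) :
      ∑ T : {T : Finset (Fin M) × (Fin M → Fin Bn × Fin Dn) // IsView N 𝒢 T}, f T.1 =
      ∑ p ∈ shapes N ×ˢ 𝒢, ∑ y ∈ Fintype.piFinset (gridS Dn p.2), f (p.1, y) := by
  classical
  rw [← Finset.sum_subtype (univ.filter (IsView N 𝒢)) (fun T => by simp) f]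
  rw [← Finset.sum_fiberwise_of_maps_to (t := shapes N ×ˢ 𝒢)
    (g := fun T => (T.1, fun v => (T.2 v).1))]
  · refine sum_congr rfl fun p hp => ?_
    rw [mem_product] at hp
    refine Finset.sum_nbij' (fun T => T.2) (fun y => (p.1, y)) ?_ ?_ ?_ ?_ ?_
    · intro T hT
      rw [mem_filter] at hT
      rw [Fintype.mem_piFinset]
      intro v
      have : (fun v => (T.2 v).1) = p.2 := congrArg Prod.snd hT.2
      simp [gridS, ← this]
    · intro y hy
      rw [Fintype.mem_piFinset] at hy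
      have h1 : (fun v => (y v).1) = p.2 := by
        funext v
        have := hy v
        simp only [gridS, mem_product, mem_singleton, mem_univ, and_true] at this
        exact this
      rw [mem_filter, mem_filter]
      refine ⟨⟨mem_univ _, ?_⟩, ?_⟩
      · have h2 := hp.1
        simp only [shapes, mem_filter, mem_univ, true_and] at h2
        exact ⟨h2.1, h2.2, by simp only [h1]; exact hp.2⟩
      · simp only [h1]
    · intro T hT
      rw [mem_filter] at hT
      have : T.1 = p.1 := congrArg Prod.fst hT.2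
      rw [← this]
    · intro y hy; rfl
    · intro T hT
      rw [mem_filter] at hT
      have : T.1 = p.1 := congrArg Prod.fst hT.2
      rw [← this]
  · intro T hT
    rw [mem_filter] at hT
    rw [mem_product]
    refine ⟨?_, hT.2.2.2⟩
    simp only [shapes, mem_filter, mem_univ, true_and]
    exact ⟨hT.2.1, hT.2.2.1⟩

/-- most of a small measure survives in a random view -/
theorem view_low (hLow : SpecLOW) {n m' dT : ℕ} (hN : N.Good n m' dT) (hD : 0 < Dn)
    [Fintype {T : Finset (Fin M) × (Fin M → Fin Bn × Fin Dn) // IsView N 𝒢 T}]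
    (U : X → ZMod 2) (hU : sz U ≤ 2 ^ m') :
    (1 - 2 * M * ((2 * m' + 1) * (n * m')) / Dn) *
      (Fintype.card {T : Finset (Fin M) × (Fin M → Fin Bn × Fin Dn) // IsView N 𝒢 T} : ℝ) * sz U ≤
      ∑ T : {T : Finset (Fin M) × (Fin M → Fin Bn × Fin Dn) // IsView N 𝒢 T},
        (sz (push (N.view T.1.1 T.1.2) U) : ℝ) := by
  rw [sum_views N 𝒢 (fun T => (sz (push (N.view T.1 T.2) U) : ℝ))]
  have hc : (Fintype.card {T : Finset (Fin M) × (Fin M → Fin Bn × Fin Dn) // IsView N 𝒢 T} : ℝ) =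
      ∑ p ∈ shapes N ×ˢ 𝒢, (Dn : ℝ) ^ M := by
    have h := sum_views N 𝒢 (fun _ => (1 : ℝ))
    rw [sum_const, card_univ, nsmul_eq_mul, mul_one] at h
    rw [h]
    refine sum_congr rfl fun p _ => ?_
    rw [sum_const, Fintype.card_piFinset, nsmul_eq_mul, mul_one]
    simp [gridS_card]
  rw [hc, mul_sum, sum_mul]
  refine sum_le_sum fun p _ => ?_
  exact hLow X M n m' dT Dn (Fin Bn × Fin Dn) N hN (gridS Dn p.2) (gridS_card p.2) hD p.1 U hU

/-- **energy lower bound**: the last step of `SpecEXACT` -/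
theorem energy_low (hLow : SpecLOW) (hRM : SpecRMlow) {n m' dT s : ℕ} (hN : N.Good n m' dT)
    (h300 : 300 * (n + 1) * (M + 1) * ((2 * m' + 1) * (n * m')) < Dn) (h𝒢 : 𝒢.Nonempty)
    (U : X → ZMod 2) (hU : 100 * sz U ≤ 2 ^ s) (hU' : sz U ≤ 2 ^ m') :
    (9 / 10 : ℝ) * sz U ≤ lam (testF N 𝒢 s) U * 2 ^ s := by
  classical
  have hD : 0 < Dn := by omega
  have hDr : (0 : ℝ) < Dn := by exact_mod_cast hD
  let VT := {T : Finset (Fin M) × (Fin M → Fin Bn × Fin Dn) // IsView N 𝒢 T}
  have hfV : Fintype VT := Fintype.ofFinite _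
  have hfin : Finite (PairT N 𝒢) := finite_pairT N 𝒢
  have hfP : Fintype (PairT N 𝒢) := Fintype.ofFinite _
  have hsum : ∀ F : VT × VT → ℝ, (∑ T : PairT N 𝒢, F T) = ∑ T : VT × VT, F T := fun F =>
    @Fintype.sum_equiv (PairT N 𝒢) (VT × VT) ℝ hfP _ _ (Equiv.refl (VT × VT)) F F (fun _ => rfl)
  have hne : Nonempty VT := by
    obtain ⟨g, hg⟩ := h𝒢
    refine ⟨⟨(∅, fun v => (g v, ⟨0, hD⟩)), ?_, ?_, ?_⟩⟩
    · intro v hv; exact absurd hv (Finset.notMem_empty v)
    · simp [NodeSys.minl]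
    · exact hg
  have hV : (0 : ℝ) < Fintype.card VT := by exact_mod_cast Fintype.card_pos
  have hs : (0 : ℝ) < (2 : ℝ) ^ s := by positivity
  -- lower bound for each pair of views
  have h1 : ∀ T : PairT N 𝒢, (99 / 100 : ℝ) * (1 / 2) ^ s *
      (sz (push (N.view T.1.1.1 T.1.1.2) U) : ℝ) ≤ energyRM s (push (pview N 𝒢 T) U) := by
    intro T
    have ha := hRM (X × X) s (push (pview N 𝒢 T) U)
    have hb : sz (push (N.view T.1.1.1 T.1.1.2) U) ≤ sz (push (pview N 𝒢 T) U) := by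
      have := H770.sz_push_le (Prod.fst : X × X → X) (push (pview N 𝒢 T) U)
      have hc : push (Prod.fst : X × X → X) (push (pview N 𝒢 T) U) =
          push (N.view T.1.1.1 T.1.1.2) U := H770.push_push (pview N 𝒢 T) Prod.fst U
      rw [← hc]; exact this
    have hc : sz (push (pview N 𝒢 T) U) ≤ sz U := H770.sz_push_le (pview N 𝒢 T) U
    have hd : (sz (push (pview N 𝒢 T) U) : ℝ) * (1 / 2) ^ s ≤ 1 / 100 := by
      have h3 : (100 : ℝ) * sz U ≤ 2 ^ s := by exact_mod_cast hU
      have h4 : (sz (push (pview N 𝒢 T) U) : ℝ) ≤ sz U := by exact_mod_cast hc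
      have h5 : (2 : ℝ) ^ s * (1 / 2) ^ s = 1 := by rw [← mul_pow]; norm_num
      have h6 : (0 : ℝ) < (1 / 2) ^ s := by positivity
      nlinarith
    have hb' : (sz (push (N.view T.1.1.1 T.1.1.2) U) : ℝ) ≤ sz (push (pview N 𝒢 T) U) := by
      exact_mod_cast hb
    refine le_trans ?_ ha
    have h6 : (0 : ℝ) < (1 / 2) ^ s := by positivity
    have h7 : (0 : ℝ) ≤ (sz (push (pview N 𝒢 T) U) : ℝ) := by positivity
    calc (99 / 100 : ℝ) * (1 / 2) ^ s * (sz (push (N.view T.1.1.1 T.1.1.2) U) : ℝ)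
        ≤ (99 / 100 : ℝ) * (1 / 2) ^ s * (sz (push (pview N 𝒢 T) U) : ℝ) := by gcongr
      _ = (sz (push (pview N 𝒢 T) U) : ℝ) * (1 / 2) ^ s * (99 / 100) := by ring
      _ ≤ _ := by
        refine mul_le_mul_of_nonneg_left (by linarith) (by positivity)
  have h2 : (99 / 100 : ℝ) * (1 / 2) ^ s * (Fintype.card VT * ∑ T : VT,
      (sz (push (N.view T.1.1 T.1.2) U) : ℝ)) ≤
      ∑ T : PairT N 𝒢, energyRM s (push (pview N 𝒢 T) U) := by
    refine le_trans (le_of_eq ?_) (sum_le_sum fun T _ => h1 T)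
    rw [← mul_sum]
    congr 1
    have : ∑ T : PairT N 𝒢, (sz (push (N.view T.1.1.1 T.1.1.2) U) : ℝ) =
        ∑ T1 : VT, ∑ _T2 : VT, (sz (push (N.view T1.1.1 T1.1.2) U) : ℝ) :=
      (hsum (fun T : VT × VT => (sz (push (N.view T.1.1.1 T.1.1.2) U) : ℝ))).trans
        (Fintype.sum_prod_type (fun T : VT × VT => (sz (push (N.view T.1.1.1 T.1.1.2) U) : ℝ)))
    rw [this, mul_sum]
    refine sum_congr rfl fun T1 _ => ?_
    rw [sum_const, card_univ, nsmul_eq_mul]
  have h3 := view_low N 𝒢 hLow hN hD U hU'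
  have h4 : (2 * M * ((2 * m' + 1) * (n * m')) / Dn : ℝ) ≤ 1 / 150 := by
    rw [div_le_iff₀ hDr]
    have h5 : 300 * M * ((2 * m' + 1) * (n * m')) ≤ Dn := by
      refine le_trans ?_ h300.le
      refine Nat.mul_le_mul_right _ ?_
      nlinarith
    have h6 : (300 * M * ((2 * m' + 1) * (n * m')) : ℝ) ≤ Dn := by exact_mod_cast h5
    linarith
  have hcard : (Nat.card (PairT N 𝒢) : ℝ) = (Fintype.card VT : ℝ) * Fintype.card VT := by
    have : Nat.card (PairT N 𝒢) = Nat.card VT * Nat.card VT := Nat.card_prod VT VT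
    rw [this, Nat.card_eq_fintype_card]; push_cast; ring
  rw [lam_eq, hcard, div_mul_eq_mul_div _ _ ((2 : ℝ) ^ s), le_div_iff₀ (by positivity)]
  have h5 : (149 / 150 : ℝ) * Fintype.card VT * sz U ≤
      ∑ T : VT, (sz (push (N.view T.1.1 T.1.2) U) : ℝ) := by
    refine le_trans ?_ h3
    have : (0 : ℝ) ≤ sz U := by positivity
    gcongr
    linarith
  have h6 : (99 / 100 : ℝ) * (1 / 2) ^ s * (Fintype.card VT *
      ((149 / 150 : ℝ) * Fintype.card VT * sz U)) ≤
      ∑ T : PairT N 𝒢, energyRM s (push (pview N 𝒢 T) U) := by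
    refine le_trans ?_ h2
    gcongr
  have h7 : (2 : ℝ) ^ s * (1 / 2) ^ s = 1 := by rw [← mul_pow]; norm_num
  have h8 : (0 : ℝ) ≤ (Fintype.card VT : ℝ) * Fintype.card VT * sz U := by positivity
  calc (9 / 10 : ℝ) * sz U * (Fintype.card VT * Fintype.card VT)
      ≤ (99 / 100 * (149 / 150)) * (Fintype.card VT * Fintype.card VT * sz U) := by nlinarith
    _ = (99 / 100 : ℝ) * ((2 : ℝ) ^ s * (1 / 2) ^ s) * (Fintype.card VT *
      ((149 / 150 : ℝ) * Fintype.card VT * sz U)) := by rw [h7]; ring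
    _ = ((99 / 100 : ℝ) * (1 / 2) ^ s * (Fintype.card VT *
      ((149 / 150 : ℝ) * Fintype.card VT * sz U))) * 2 ^ s := by ring
    _ ≤ _ := by gcongr

end bridge

end Vale.Agent.P318.H663
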